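import Vale.Agent.P032.H520.Seven

/-!
# P032: the brick wall as a planar map with seven colours

A locally finite planar map (in the sense of `PlMap`) whose faces are the open rectangles of the
brick wall, coloured with seven colours such that no two points of faces of the same colour are at
distance one.
-/

open Set Filter Topology

noncomputable section

namespace Vale.Agent.P032.H520

/-- the point with brick coordinates `X, Y` -/
def pt (X Y : ℝ) : EuclideanSpace ℝ (Fin 2) := WithLp.toLp 2 ![4 / 5 * X, 3 / 5 * Y]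

@[simp] theorem pt_zero (X Y : ℝ) : pt X Y 0 = 4 / 5 * X := rfl

@[simp] theorem pt_one (X Y : ℝ) : pt X Y 1 = 3 / 5 * Y := rfl

theorem pt_surj (x : EuclideanSpace ℝ (Fin 2)) : ∃ X Y, x = pt X Y := by
  refine ⟨5 / 4 * x 0, 5 / 3 * x 1, ?_⟩
  ext k
  fin_cases k
  · simp; ring
  · simp; ring

theorem pt_inj {X Y X' Y' : ℝ} (h : pt X Y = pt X' Y') : X = X' ∧ Y = Y' := by
  have h0 := congrArg (fun x : EuclideanSpace ℝ (Fin 2) => x 0) h
  have h1 := congrArg (fun x : EuclideanSpace ℝ (Fin 2) => x 1) h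
  simp only [pt_zero, pt_one] at h0 h1
  constructor <;> linarith

theorem continuous_pt {f g : ℝ → ℝ} (hf : Continuous f) (hg : Continuous g) :
    Continuous fun u => pt (f u) (g u) := by
  unfold pt
  refine (PiLp.continuous_toLp 2 _).comp (continuous_pi fun k => ?_)
  fin_cases k
  · simp only [Fin.zero_eta, Matrix.cons_val_zero]; fun_prop
  · simp only [Fin.mk_one, Matrix.cons_val_one, Matrix.cons_val_zero]; fun_prop

/-- lower and upper bounds of the coordinates on the brick `i` of the row `j` -/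
def lo (f : ℤ × ℤ) : Fin 2 → ℝ := ![4 / 5 * (f.1 + f.2 / 2), 3 / 5 * f.2]

def hi (f : ℤ × ℤ) : Fin 2 → ℝ := ![4 / 5 * (f.1 + 1 + f.2 / 2), 3 / 5 * (f.2 + 1)]

/-- the open brick -/
def face (f : ℤ × ℤ) : Set (EuclideanSpace ℝ (Fin 2)) := {x | ∀ k, x k ∈ Ioo (lo f k) (hi f k)}

theorem lo_lt_hi (f : ℤ × ℤ) (k : Fin 2) : lo f k < hi f k := by
  fin_cases k
  · simp only [lo, hi, Fin.zero_eta, Matrix.cons_val_zero]; linarith
  · simp only [lo, hi, Fin.mk_one, Matrix.cons_val_one, Matrix.cons_val_zero]; linarith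

theorem pt_mem_face {f : ℤ × ℤ} {X Y : ℝ} : pt X Y ∈ face f ↔
    (f.1 + f.2 / 2 < X ∧ X < f.1 + 1 + f.2 / 2) ∧ (f.2 : ℝ) < Y ∧ Y < f.2 + 1 := by
  simp only [face, mem_ofPred_eq, Fin.forall_fin_two, lo, hi, Matrix.cons_val_zero,
    Matrix.cons_val_one, pt_zero, pt_one, mem_Ioo]
  constructor
  · rintro ⟨⟨h1, h2⟩, h3, h4⟩
    refine ⟨⟨?_, ?_⟩, ?_, ?_⟩ <;> linarith
  · rintro ⟨⟨h1, h2⟩, h3, h4⟩
    refine ⟨⟨?_, ?_⟩, ?_, ?_⟩ <;> linarith

theorem face_eq (f : ℤ × ℤ) : face f =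
    (PiLp.homeomorph 2 fun _ : Fin 2 => ℝ) ⁻¹' (Set.pi univ fun k => Ioo (lo f k) (hi f k)) := by
  ext x
  simp only [face, mem_ofPred_eq, mem_preimage, Set.mem_pi, mem_univ, true_implies]
  rfl

theorem closure_face (f : ℤ × ℤ) : closure (face f) = {x | ∀ k, x k ∈ Icc (lo f k) (hi f k)} := by
  rw [face_eq, ← Homeomorph.preimage_closure, closure_pi_set]
  ext x
  simp only [mem_preimage, Set.mem_pi, mem_univ, true_implies, mem_ofPred_eq]
  refine forall_congr' fun k => ?_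
  rw [closure_Ioo (lo_lt_hi f k).ne]
  rfl

theorem pt_mem_closure {f : ℤ × ℤ} {X Y : ℝ} : pt X Y ∈ closure (face f) ↔
    (f.1 + f.2 / 2 ≤ X ∧ X ≤ f.1 + 1 + f.2 / 2) ∧ (f.2 : ℝ) ≤ Y ∧ Y ≤ f.2 + 1 := by
  rw [closure_face]
  simp only [mem_ofPred_eq, Fin.forall_fin_two, lo, hi, Matrix.cons_val_zero,
    Matrix.cons_val_one, pt_zero, pt_one, mem_Icc]
  constructor
  · rintro ⟨⟨h1, h2⟩, h3, h4⟩
    refine ⟨⟨?_, ?_⟩, ?_, ?_⟩ <;> linarith
  · rintro ⟨⟨h1, h2⟩, h3, h4⟩
    refine ⟨⟨?_, ?_⟩, ?_, ?_⟩ <;> linarith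

theorem isOpen_face (f : ℤ × ℤ) : IsOpen (face f) := by
  rw [face_eq]
  exact (isOpen_set_pi finite_univ fun k _ => isOpen_Ioo).preimage (Homeomorph.continuous _)

theorem convex_face (f : ℤ × ℤ) : Convex ℝ (face f) := by
  intro x hx y hy a b ha hb hab k
  have := convex_Ioo (𝕜 := ℝ) (lo f k) (hi f k) (hx k) (hy k) ha hb hab
  simpa using this

/-- `LocallyFinite` for families indexed by bricks, each member near its brick -/
theorem lf_of {α : Type*} (S : α → Set (EuclideanSpace ℝ (Fin 2))) (b : α → ℤ × ℤ)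
    (hb : ∀ s : Set (ℤ × ℤ), s.Finite → (b ⁻¹' s).Finite)
    (hS : ∀ a, ∀ X Y : ℝ, pt X Y ∈ S a → (b a).1 + (b a).2 / 2 ≤ X ∧ X ≤ (b a).1 + 1 + (b a).2 / 2 ∧
      ((b a).2 : ℝ) ≤ Y ∧ Y ≤ (b a).2 + 1) : LocallyFinite S := by
  intro x
  obtain ⟨X, Y, rfl⟩ := pt_surj x
  refine ⟨{y | |y 0 - pt X Y 0| < 4 / 5 ∧ |y 1 - pt X Y 1| < 3 / 5}, ?_, ?_⟩
  · have h0 : Continuous fun y : EuclideanSpace ℝ (Fin 2) => |y 0 - pt X Y 0| := by fun_prop
    have h1 : Continuous fun y : EuclideanSpace ℝ (Fin 2) => |y 1 - pt X Y 1| := by fun_prop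
    refine IsOpen.mem_nhds ((isOpen_lt h0 continuous_const).inter
      (isOpen_lt h1 continuous_const)) ?_
    constructor <;> simp
  · refine (hb ((Icc (⌊X - Y / 2⌋ - 4) (⌊X - Y / 2⌋ + 4)) ×ˢ (Icc (⌊Y⌋ - 4) (⌊Y⌋ + 4)))
      ((finite_Icc _ _).prod (finite_Icc _ _))).subset ?_
    rintro a ⟨y, hya, hy0, hy1⟩
    obtain ⟨X', Y', rfl⟩ := pt_surj y
    obtain ⟨h1, h2, h3, h4⟩ := hS a X' Y' hya
    simp only [pt_zero, pt_one] at hy0 hy1
    rw [abs_lt] at hy0 hy1
    have f1 := Int.floor_le (X - Y / 2)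
    have f2 := Int.lt_floor_add_one (X - Y / 2)
    have f3 := Int.floor_le Y
    have f4 := Int.lt_floor_add_one Y
    simp only [mem_preimage, mem_prod, mem_Icc]
    refine ⟨⟨?_, ?_⟩, ?_, ?_⟩
    · have : ((⌊X - Y / 2⌋ - 5 : ℤ) : ℝ) < (b a).1 := by push_cast; linarith [hy0.1, hy1.1]
      have := Int.cast_lt.1 this
      omega
    · have : ((b a).1 : ℝ) < ((⌊X - Y / 2⌋ + 5 : ℤ) : ℝ) := by push_cast; linarith [hy0.2, hy1.2]
      have := Int.cast_lt.1 this
      omega
    · have : ((⌊Y⌋ - 5 : ℤ) : ℝ) < (b a).2 := by push_cast; linarith [hy0.1, hy1.1]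
      have := Int.cast_lt.1 this
      omega
    · have : ((b a).2 : ℝ) < ((⌊Y⌋ + 5 : ℤ) : ℝ) := by push_cast; linarith [hy0.2, hy1.2]
      have := Int.cast_lt.1 this
      omega

/-- the edges: the left side and the two halves of the lower side of each brick -/
def edge (e : (ℤ × ℤ) × Fin 3) (u : ℝ) : EuclideanSpace ℝ (Fin 2) :=
  if e.2 = 0 then pt (e.1.1 + e.1.2 / 2) (e.1.2 + u)
  else if e.2 = 1 then pt (e.1.1 + e.1.2 / 2 + u / 2) e.1.2
  else pt (e.1.1 + e.1.2 / 2 + 1 / 2 + u / 2) e.1.2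

theorem edge0 (f : ℤ × ℤ) (u : ℝ) : edge (f, 0) u = pt (f.1 + f.2 / 2) (f.2 + u) := rfl

theorem edge1 (f : ℤ × ℤ) (u : ℝ) : edge (f, 1) u = pt (f.1 + f.2 / 2 + u / 2) f.2 := rfl

theorem edge2 (f : ℤ × ℤ) (u : ℝ) : edge (f, 2) u = pt (f.1 + f.2 / 2 + 1 / 2 + u / 2) f.2 := rfl

theorem continuous_edge (e : (ℤ × ℤ) × Fin 3) : Continuous (edge e) := by
  obtain ⟨f, t⟩ := e
  fin_cases t
  · exact continuous_pt (f := fun _ => f.1 + f.2 / 2) (g := fun u => f.2 + u) (by fun_prop)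
      (by fun_prop)
  · exact continuous_pt (f := fun u => f.1 + f.2 / 2 + u / 2) (g := fun _ => f.2) (by fun_prop)
      (by fun_prop)
  · exact continuous_pt (f := fun u => f.1 + f.2 / 2 + 1 / 2 + u / 2) (g := fun _ => f.2)
      (by fun_prop) (by fun_prop)

theorem lf_face : LocallyFinite face := by
  refine lf_of face id (fun s hs => by simpa using hs) fun f X Y h => ?_
  rw [pt_mem_face] at h
  exact ⟨h.1.1.le, h.1.2.le, h.2.1.le, h.2.2.le⟩

theorem lf_edge : LocallyFinite fun e => edge e '' Icc (0 : ℝ) 1 := by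
  refine lf_of _ Prod.fst (fun s hs => ?_) fun e X Y h => ?_
  · have : (Prod.fst ⁻¹' s : Set ((ℤ × ℤ) × Fin 3)) = s ×ˢ univ := by ext; simp
    rw [this]
    exact hs.prod finite_univ
  · obtain ⟨f, t⟩ := e
    obtain ⟨u, hu, h⟩ := h
    obtain ⟨h0, h1⟩ := hu
    fin_cases t
    · obtain ⟨h2, h3⟩ := pt_inj ((edge0 f u).symm.trans h)
      rw [← h2, ← h3]
      refine ⟨?_, ?_, ?_, ?_⟩ <;> simp only <;> linarith
    · obtain ⟨h2, h3⟩ := pt_inj ((edge1 f u).symm.trans h)
      rw [← h2, ← h3]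
      refine ⟨?_, ?_, ?_, ?_⟩ <;> simp only <;> linarith
    · obtain ⟨h2, h3⟩ := pt_inj ((edge2 f u).symm.trans h)
      rw [← h2, ← h3]
      refine ⟨?_, ?_, ?_, ?_⟩ <;> simp only <;> linarith

/-- the edges meet only in end points -/
theorem edge_inj (e e' : (ℤ × ℤ) × Fin 3) (u u' : ℝ) (hu : u ∈ Ioo (0 : ℝ) 1)
    (hu' : u' ∈ Icc (0 : ℝ) 1) (h : edge e u = edge e' u') : e = e' ∧ u = u' := by
  obtain ⟨⟨i, j⟩, t⟩ := e
  obtain ⟨⟨i', j'⟩, t'⟩ := e'
  obtain ⟨u0, u1⟩ := hu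
  obtain ⟨v0, v1⟩ := hu'
  -- integers strictly between integers
  have key : ∀ (m : ℤ) (a : ℝ), (m : ℝ) = a → ∀ n : ℤ, (n : ℝ) < a → a < n + 1 → False := by
    intro m a hm n h1 h2
    rw [← hm] at h1 h2
    have h3 := Int.cast_lt.1 h1
    have h4 : m < n + 1 := by exact_mod_cast h2
    omega
  have hz : ∀ m : ℤ, (-1 : ℝ) < m → (m : ℝ) < 1 → m = 0 := by
    intro m h1 h2
    have h3 : (-1 : ℤ) < m := by exact_mod_cast h1
    have h4 : m < 1 := by exact_mod_cast h2
    omega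
  fin_cases t <;> fin_cases t'
  · obtain ⟨h1, h2⟩ := pt_inj ((edge0 (i, j) u).symm.trans (h.trans (edge0 (i', j') u')))
    simp only at h1 h2
    have hj : j - j' = 0 := hz _ (by push_cast; linarith) (by push_cast; linarith)
    have hj : j = j' := by omega
    subst hj
    have hi : (i : ℝ) = i' := by linarith
    have hi : i = i' := by exact_mod_cast hi
    subst hi
    exact ⟨rfl, by linarith⟩
  · obtain ⟨h1, h2⟩ := pt_inj ((edge0 (i, j) u).symm.trans (h.trans (edge1 (i', j') u')))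
    simp only at h1 h2
    exact (key j' _ h2.symm j (by linarith) (by linarith)).elim
  · obtain ⟨h1, h2⟩ := pt_inj ((edge0 (i, j) u).symm.trans (h.trans (edge2 (i', j') u')))
    simp only at h1 h2
    exact (key j' _ h2.symm j (by linarith) (by linarith)).elim
  · obtain ⟨h1, h2⟩ := pt_inj ((edge1 (i, j) u).symm.trans (h.trans (edge0 (i', j') u')))
    simp only at h1 h2
    have hj : j - j' = 0 ∨ j - j' = 1 := by
      have h3 : (0 : ℝ) ≤ ((j - j' : ℤ) : ℝ) := by push_cast; linarith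
      have h4 : ((j - j' : ℤ) : ℝ) ≤ 1 := by push_cast; linarith
      have h3 : 0 ≤ j - j' := by exact_mod_cast h3
      have h4 : j - j' ≤ 1 := by exact_mod_cast h4
      omega
    rcases hj with hj | hj
    · have hj : j = j' := by omega
      subst hj
      exact (key (i' - i) (u / 2) (by push_cast; linarith) 0 (by push_cast; linarith)
        (by push_cast; linarith)).elim
    · have hj : j = j' + 1 := by omega
      subst hj
      push_cast at h1
      exact (key (i' - i) (1 / 2 + u / 2) (by push_cast; linarith) 0 (by push_cast; linarith)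
        (by push_cast; linarith)).elim
  · obtain ⟨h1, h2⟩ := pt_inj ((edge1 (i, j) u).symm.trans (h.trans (edge1 (i', j') u')))
    simp only at h1 h2
    have hj : j = j' := by exact_mod_cast h2
    subst hj
    have hi : i - i' = 0 := hz _ (by push_cast; linarith) (by push_cast; linarith)
    have hi : i = i' := by omega
    subst hi
    exact ⟨rfl, by linarith⟩
  · obtain ⟨h1, h2⟩ := pt_inj ((edge1 (i, j) u).symm.trans (h.trans (edge2 (i', j') u')))
    simp only at h1 h2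
    have hj : j = j' := by exact_mod_cast h2
    subst hj
    exact (key (i - i') (1 / 2 + u' / 2 - u / 2) (by push_cast; linarith) 0
      (by push_cast; linarith) (by push_cast; linarith)).elim
  · obtain ⟨h1, h2⟩ := pt_inj ((edge2 (i, j) u).symm.trans (h.trans (edge0 (i', j') u')))
    simp only at h1 h2
    have hj : j - j' = 0 ∨ j - j' = 1 := by
      have h3 : (0 : ℝ) ≤ ((j - j' : ℤ) : ℝ) := by push_cast; linarith
      have h4 : ((j - j' : ℤ) : ℝ) ≤ 1 := by push_cast; linarith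
      have h3 : 0 ≤ j - j' := by exact_mod_cast h3
      have h4 : j - j' ≤ 1 := by exact_mod_cast h4
      omega
    rcases hj with hj | hj
    · have hj : j = j' := by omega
      subst hj
      exact (key (i' - i) (1 / 2 + u / 2) (by push_cast; linarith) 0 (by push_cast; linarith)
        (by push_cast; linarith)).elim
    · have hj : j = j' + 1 := by omega
      subst hj
      push_cast at h1
      exact (key (i' - i) (1 + u / 2) (by push_cast; linarith) 1 (by push_cast; linarith)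
        (by push_cast; linarith)).elim
  · obtain ⟨h1, h2⟩ := pt_inj ((edge2 (i, j) u).symm.trans (h.trans (edge1 (i', j') u')))
    simp only at h1 h2
    have hj : j = j' := by exact_mod_cast h2
    subst hj
    exact (key (i' - i) (1 / 2 + u / 2 - u' / 2) (by push_cast; linarith) 0
      (by push_cast; linarith) (by push_cast; linarith)).elim
  · obtain ⟨h1, h2⟩ := pt_inj ((edge2 (i, j) u).symm.trans (h.trans (edge2 (i', j') u')))
    simp only at h1 h2
    have hj : j = j' := by exact_mod_cast h2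
    subst hj
    have hi : i - i' = 0 := hz _ (by push_cast; linarith) (by push_cast; linarith)
    have hi : i = i' := by omega
    subst hi
    exact ⟨rfl, by linarith⟩

/-- the faces cover the complement of the edges -/
theorem face_cover (x : EuclideanSpace ℝ (Fin 2)) (h : ∀ e, x ∉ edge e '' Icc (0 : ℝ) 1) :
    ∃ f, x ∈ face f := by
  obtain ⟨X, Y, rfl⟩ := pt_surj x
  set j := ⌊Y⌋ with hj
  set i := ⌊X - j / 2⌋ with hi
  have f1 : (j : ℝ) ≤ Y := Int.floor_le _
  have f2 : Y < j + 1 := Int.lt_floor_add_one _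
  have f3 : (i : ℝ) ≤ X - j / 2 := Int.floor_le _
  have f4 : X - j / 2 < i + 1 := Int.lt_floor_add_one _
  refine ⟨(i, j), pt_mem_face.2 ⟨⟨?_, by simp only; linarith⟩, ?_, f2⟩⟩
  · refine lt_of_le_of_ne (by simp only; linarith) fun heq => h ((i, j), 0) ?_
    refine ⟨Y - j, ⟨by linarith, by linarith⟩, ?_⟩
    simp only at heq
    rw [edge0]
    simp only
    rw [heq]
    congr 1
    ring
  · refine lt_of_le_of_ne f1 fun heq => ?_
    simp only at heq
    rcases le_total (X - j / 2) (i + 1 / 2) with h5 | h5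
    · refine h ((i, j), 1) ⟨2 * (X - j / 2 - i), ⟨by linarith, by linarith⟩, ?_⟩
      rw [edge1]
      simp only
      rw [heq]
      congr 1
      ring
    · refine h ((i, j), 2) ⟨2 * (X - j / 2 - i - 1 / 2), ⟨by linarith, by linarith⟩, ?_⟩
      rw [edge2]
      simp only
      rw [heq]
      congr 1
      ring

theorem pair_eq {a b c d : ℤ} : ((a, b) = (c, d)) ↔ a = c ∧ b = d := Prod.mk_inj

/-- the two sides of an edge -/
theorem edge_sides (e : (ℤ × ℤ) × Fin 3) : ∃ a b, ∀ u ∈ Ioo (0 : ℝ) 1, ∀ f,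
    edge e u ∈ closure (face f) ↔ f = a ∨ f = b := by
  obtain ⟨⟨i, j⟩, t⟩ := e
  fin_cases t
  · refine ⟨(i, j), (i - 1, j), fun u hu f => ?_⟩
    obtain ⟨u0, u1⟩ := hu
    obtain ⟨i', j'⟩ := f
    change edge ((i, j), 0) u ∈ _ ↔ _
    rw [edge0, pt_mem_closure, pair_eq, pair_eq]
    simp only
    constructor
    · rintro ⟨⟨h1, h2⟩, h3, h4⟩
      have h5 : (j' : ℝ) < (j + 1 : ℤ) := by push_cast; linarith
      have h6 : ((j - 1 : ℤ) : ℝ) < j' := by push_cast; linarith
      have h5 := Int.cast_lt.1 h5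
      have h6 := Int.cast_lt.1 h6
      have hj : j' = j := by omega
      subst hj
      have h7 : (i' : ℝ) ≤ i := by linarith
      have h8 : ((i - 1 : ℤ) : ℝ) ≤ i' := by push_cast; linarith
      have h7 := Int.cast_le.1 h7
      have h8 := Int.cast_le.1 h8
      omega
    · rintro (⟨rfl, rfl⟩ | ⟨rfl, rfl⟩)
      · refine ⟨⟨?_, ?_⟩, ?_, ?_⟩ <;> linarith
      · push_cast
        refine ⟨⟨?_, ?_⟩, ?_, ?_⟩ <;> linarith
  · refine ⟨(i, j), (i, j - 1), fun u hu f => ?_⟩
    obtain ⟨u0, u1⟩ := hu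
    obtain ⟨i', j'⟩ := f
    change edge ((i, j), 1) u ∈ _ ↔ _
    rw [edge1, pt_mem_closure, pair_eq, pair_eq]
    simp only
    constructor
    · rintro ⟨⟨h1, h2⟩, h3, h4⟩
      have h5 : (j' : ℝ) ≤ j := h3
      have h6 : ((j - 1 : ℤ) : ℝ) ≤ j' := by push_cast; linarith
      have h5 := Int.cast_le.1 h5
      have h6 := Int.cast_le.1 h6
      have hj : j' = j ∨ j' = j - 1 := by omega
      rcases hj with hj | hj
      · subst hj
        have h7 : (i' : ℝ) < ((i + 1 : ℤ) : ℝ) := by push_cast; linarith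
        have h8 : ((i - 1 : ℤ) : ℝ) < i' := by push_cast; linarith
        have h7 := Int.cast_lt.1 h7
        have h8 := Int.cast_lt.1 h8
        omega
      · subst hj
        push_cast at h1 h2
        have h7 : (i' : ℝ) < ((i + 1 : ℤ) : ℝ) := by push_cast; linarith
        have h8 : ((i - 1 : ℤ) : ℝ) < i' := by push_cast; linarith
        have h7 := Int.cast_lt.1 h7
        have h8 := Int.cast_lt.1 h8
        omega
    · rintro (⟨rfl, rfl⟩ | ⟨rfl, rfl⟩)
      · refine ⟨⟨?_, ?_⟩, ?_, ?_⟩ <;> linarith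
      · push_cast
        refine ⟨⟨?_, ?_⟩, ?_, ?_⟩ <;> linarith
  · refine ⟨(i, j), (i + 1, j - 1), fun u hu f => ?_⟩
    obtain ⟨u0, u1⟩ := hu
    obtain ⟨i', j'⟩ := f
    change edge ((i, j), 2) u ∈ _ ↔ _
    rw [edge2, pt_mem_closure, pair_eq, pair_eq]
    simp only
    constructor
    · rintro ⟨⟨h1, h2⟩, h3, h4⟩
      have h5 : (j' : ℝ) ≤ j := h3
      have h6 : ((j - 1 : ℤ) : ℝ) ≤ j' := by push_cast; linarith
      have h5 := Int.cast_le.1 h5
      have h6 := Int.cast_le.1 h6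
      have hj : j' = j ∨ j' = j - 1 := by omega
      rcases hj with hj | hj
      · subst hj
        have h7 : (i' : ℝ) < ((i + 1 : ℤ) : ℝ) := by push_cast; linarith
        have h8 : ((i - 1 : ℤ) : ℝ) < i' := by push_cast; linarith
        have h7 := Int.cast_lt.1 h7
        have h8 := Int.cast_lt.1 h8
        omega
      · subst hj
        push_cast at h1 h2
        have h7 : (i' : ℝ) < ((i + 2 : ℤ) : ℝ) := by push_cast; linarith
        have h8 : ((i : ℤ) : ℝ) < i' := by linarith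
        have h7 := Int.cast_lt.1 h7
        have h8 := Int.cast_lt.1 h8
        omega
    · rintro (⟨rfl, rfl⟩ | ⟨rfl, rfl⟩)
      · refine ⟨⟨?_, ?_⟩, ?_, ?_⟩ <;> linarith
      · push_cast
        refine ⟨⟨?_, ?_⟩, ?_, ?_⟩ <;> linarith

/-- the colour of a brick -/
def fcol (f : ℤ × ℤ) : Fin 7 :=
  ⟨((f.1 - 2 * f.2) % 7).toNat, by
    have h1 := Int.emod_nonneg (f.1 - 2 * f.2) (b := 7) (by norm_num)
    have h2 := Int.emod_lt_of_pos (f.1 - 2 * f.2) (b := 7) (by norm_num)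
    omega⟩

theorem face_row {f : ℤ × ℤ} {x : EuclideanSpace ℝ (Fin 2)} (hx : x ∈ face f) :
    row ⟨x 0, x 1⟩ = f.2 ∧ brick ⟨x 0, x 1⟩ = f.1 := by
  obtain ⟨X, Y, rfl⟩ := pt_surj x
  obtain ⟨⟨h1, h2⟩, h3, h4⟩ := pt_mem_face.1 hx
  have h5 : row ⟨pt X Y 0, pt X Y 1⟩ = f.2 := by
    unfold row
    simp only [pt_one]
    rw [Int.floor_eq_iff]
    constructor <;> linarith
  refine ⟨h5, ?_⟩
  unfold brick
  rw [h5]
  simp only [pt_zero]
  rw [Int.floor_eq_iff]
  constructor <;> linarith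

/-- no two points of faces of the same colour are at distance one -/
theorem face_col (f f' : ℤ × ℤ) (h : fcol f = fcol f') (x : EuclideanSpace ℝ (Fin 2))
    (hx : x ∈ face f) (y : EuclideanSpace ℝ (Fin 2)) (hy : y ∈ face f') : dist x y ≠ 1 := by
  intro hd
  have hd' : dist (⟨x 0, x 1⟩ : ℂ) ⟨y 0, y 1⟩ = 1 := by
    rw [← hd, EuclideanSpace.dist_eq, Complex.dist_eq, Complex.norm_def, Complex.normSq_apply]
    congr 1
    simp only [Complex.sub_re, Complex.sub_im, Fin.sum_univ_two, Real.dist_eq, sq_abs]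
    ring
  obtain ⟨h1, h2⟩ := face_row hx
  obtain ⟨h3, h4⟩ := face_row hy
  refine core hd' ?_
  rw [h1, h2, h3, h4]
  have h0 : ((f.1 - 2 * f.2) % 7).toNat = ((f'.1 - 2 * f'.2) % 7).toNat := congrArg Fin.val h
  have h1 := Int.emod_nonneg (f.1 - 2 * f.2) (b := 7) (by norm_num)
  have h2 := Int.emod_nonneg (f'.1 - 2 * f'.2) (b := 7) (by norm_num)
  have h3 : (f.1 - 2 * f.2) % 7 = (f'.1 - 2 * f'.2) % 7 := by omega
  omega

/-- **A planar map with seven colours**: the hypotheses are those of the structure `PlMap` and of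
the colouring in the theorem on six colours, with seven colours in place of six. -/
theorem exists_map_seven : ∃ (g : (ℤ × ℤ) × Fin 3 → ℝ → EuclideanSpace ℝ (Fin 2))
    (G : ℤ × ℤ → Set (EuclideanSpace ℝ (Fin 2))) (c : ℤ × ℤ → Fin 7),
    (∀ e, ContinuousOn (g e) (Icc 0 1)) ∧
    (LocallyFinite fun e => g e '' Icc 0 1) ∧
    (∀ e e' u u', u ∈ Ioo (0 : ℝ) 1 → u' ∈ Icc (0 : ℝ) 1 → g e u = g e' u' → e = e' ∧ u = u') ∧
    (∀ f, IsOpen (G f)) ∧ (∀ f, IsPreconnected (G f)) ∧ LocallyFinite G ∧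
    (∀ x, (∀ e, x ∉ g e '' Icc 0 1) → ∃ f, x ∈ G f) ∧
    (∀ e, ∃ a b, ∀ u ∈ Ioo (0 : ℝ) 1, ∀ f, g e u ∈ closure (G f) ↔ f = a ∨ f = b) ∧
    (∀ f f', c f = c f' → ∀ x ∈ G f, ∀ y ∈ G f', dist x y ≠ 1) :=
  ⟨edge, face, fcol, fun e => (continuous_edge e).continuousOn, lf_edge, edge_inj, isOpen_face,
    fun f => (convex_face f).isPreconnected, lf_face, face_cover, edge_sides, face_col⟩

end Vale.Agent.P032.H520
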