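import Mathlib

/-!
# P032: seven colours are enough

The plane has a proper colouring with seven colours: the brick wall of half open rectangles of
width `4/5` and height `3/5`, consecutive rows shifted by half a brick; the brick number `i` of the
row `j` has the colour `i - 2 j` modulo `7`.
-/

open Set

noncomputable section

namespace Vale.Agent.P032.H520

/-- the row of a point -/
def row (z : ℂ) : ℤ := ⌊5 / 3 * z.im⌋

/-- the number of the brick of a point in its row -/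
def brick (z : ℂ) : ℤ := ⌊5 / 4 * z.re - row z / 2⌋

/-- arithmetic core: two points of bricks with `7 ∣ (i - i') - 2 (j - j')` are not at distance
one -/
theorem core {x y : ℂ} (hxy : dist x y = 1)
    (h7 : (7 : ℤ) ∣ (brick x - brick y) - 2 * (row x - row y)) : False := by
  have hd : (x.re - y.re) ^ 2 + (x.im - y.im) ^ 2 = 1 := by
    have h1 : dist x y ^ 2 = (x.re - y.re) ^ 2 + (x.im - y.im) ^ 2 := by
      rw [Complex.dist_eq, Complex.sq_norm, Complex.normSq_apply]
      simp only [Complex.sub_re, Complex.sub_im]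
      ring
    rw [← h1, hxy]; norm_num
  have a1 : (row x : ℝ) ≤ 5 / 3 * x.im := Int.floor_le _
  have a2 : 5 / 3 * x.im < row x + 1 := Int.lt_floor_add_one _
  have a3 : (row y : ℝ) ≤ 5 / 3 * y.im := Int.floor_le _
  have a4 : 5 / 3 * y.im < row y + 1 := Int.lt_floor_add_one _
  have b1 : (brick x : ℝ) ≤ 5 / 4 * x.re - row x / 2 := Int.floor_le _
  have b2 : 5 / 4 * x.re - row x / 2 < brick x + 1 := Int.lt_floor_add_one _
  have b3 : (brick y : ℝ) ≤ 5 / 4 * y.re - row y / 2 := Int.floor_le _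
  have b4 : 5 / 4 * y.re - row y / 2 < brick y + 1 := Int.lt_floor_add_one _
  have hX : |x.re - y.re| ≤ 1 := by
    rw [← abs_one, ← sq_le_sq]; nlinarith [sq_nonneg (x.im - y.im)]
  have hY : |x.im - y.im| ≤ 1 := by
    rw [← abs_one, ← sq_le_sq]; nlinarith [sq_nonneg (x.re - y.re)]
  obtain ⟨hX1, hX2⟩ := abs_le.1 hX
  obtain ⟨hY1, hY2⟩ := abs_le.1 hY
  obtain ⟨J, hJ⟩ : ∃ J : ℤ, J = row x - row y := ⟨_, rfl⟩
  obtain ⟨I, hI⟩ : ∃ I : ℤ, I = brick x - brick y := ⟨_, rfl⟩
  have hJr : (J : ℝ) = row x - row y := by rw [hJ]; push_cast; ring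
  have hIr : (I : ℝ) = brick x - brick y := by rw [hI]; push_cast; ring
  rw [← hJ, ← hI] at h7
  have c1 : (J : ℝ) < 3 := by linarith
  have c2 : (-3 : ℝ) < J := by linarith
  have c1' : J < 3 := by exact_mod_cast c1
  have c2' : -3 < J := by exact_mod_cast c2
  have d1 : ((2 * I + J : ℤ) : ℝ) < 5 := by push_cast; linarith
  have d2 : (-5 : ℝ) < ((2 * I + J : ℤ) : ℝ) := by push_cast; linarith
  have d1' : 2 * I + J < 5 := by exact_mod_cast d1
  have d2' : -5 < 2 * I + J := by exact_mod_cast d2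
  have hcase : (J = 0 ∧ I = 0) ∨ (J = 2 ∧ I = -3) ∨ (J = -2 ∧ I = 3) := by
    clear hJr hIr c1 c2 d1 d2 hI hJ
    have h : J = -2 ∨ J = -1 ∨ J = 0 ∨ J = 1 ∨ J = 2 := by omega
    rcases h with rfl | rfl | rfl | rfl | rfl <;> omega
  rcases hcase with ⟨h1, h2⟩ | ⟨h1, h2⟩ | ⟨h1, h2⟩
  · rw [h1] at hJr
    rw [h2] at hIr
    push_cast at hJr hIr
    have e1 : |x.re - y.re| < 4 / 5 := by rw [abs_lt]; constructor <;> linarith
    have e2 : |x.im - y.im| < 3 / 5 := by rw [abs_lt]; constructor <;> linarith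
    have e3 : (x.re - y.re) ^ 2 < (4 / 5) ^ 2 := sq_lt_sq' (abs_lt.1 e1).1 (abs_lt.1 e1).2
    have e4 : (x.im - y.im) ^ 2 < (3 / 5) ^ 2 := sq_lt_sq' (abs_lt.1 e2).1 (abs_lt.1 e2).2
    linarith
  · rw [h1] at hJr
    rw [h2] at hIr
    push_cast at hJr hIr
    have e1 : 4 / 5 < y.re - x.re := by linarith
    have e2 : 3 / 5 < x.im - y.im := by linarith
    have e3 : (4 / 5) ^ 2 < (y.re - x.re) ^ 2 := pow_lt_pow_left₀ e1 (by norm_num) (by norm_num)
    have e4 : (3 / 5) ^ 2 < (x.im - y.im) ^ 2 := pow_lt_pow_left₀ e2 (by norm_num) (by norm_num)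
    have e5 : (y.re - x.re) ^ 2 = (x.re - y.re) ^ 2 := by ring
    linarith
  · rw [h1] at hJr
    rw [h2] at hIr
    push_cast at hJr hIr
    have e1 : 4 / 5 < x.re - y.re := by linarith
    have e2 : 3 / 5 < y.im - x.im := by linarith
    have e3 : (4 / 5) ^ 2 < (x.re - y.re) ^ 2 := pow_lt_pow_left₀ e1 (by norm_num) (by norm_num)
    have e4 : (3 / 5) ^ 2 < (y.im - x.im) ^ 2 := pow_lt_pow_left₀ e2 (by norm_num) (by norm_num)
    have e5 : (y.im - x.im) ^ 2 = (x.im - y.im) ^ 2 := by ring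
    linarith

/-- the colouring -/
def col (z : ℂ) : Fin 7 :=
  ⟨((brick z - 2 * row z) % 7).toNat, by
    have h1 := Int.emod_nonneg (brick z - 2 * row z) (b := 7) (by norm_num)
    have h2 := Int.emod_lt_of_pos (brick z - 2 * row z) (b := 7) (by norm_num)
    omega⟩

theorem col_eq {x y : ℂ} (h : col x = col y) :
    (7 : ℤ) ∣ (brick x - brick y) - 2 * (row x - row y) := by
  have h0 : ((brick x - 2 * row x) % 7).toNat = ((brick y - 2 * row y) % 7).toNat :=
    congrArg Fin.val h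
  have h1 := Int.emod_nonneg (brick x - 2 * row x) (b := 7) (by norm_num)
  have h2 := Int.emod_nonneg (brick y - 2 * row y) (b := 7) (by norm_num)
  have h3 : (brick x - 2 * row x) % 7 = (brick y - 2 * row y) % 7 := by omega
  omega

/-- **Seven colours are enough** (complex form). -/
theorem seven : ∃ c : ℂ → Fin 7, ∀ x y : ℂ, dist x y = 1 → c x ≠ c y :=
  ⟨col, fun _ _ hxy h => core hxy (col_eq h)⟩

/-- **Seven colours are enough.** -/
theorem seven_plane : ∃ c : EuclideanSpace ℝ (Fin 2) → Fin 7,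
    ∀ x y : EuclideanSpace ℝ (Fin 2), dist x y = 1 → c x ≠ c y := by
  let φ : ℂ ≃ₗᵢ[ℝ] EuclideanSpace ℝ (Fin 2) := Complex.orthonormalBasisOneI.repr
  refine ⟨fun x => col (φ.symm x), fun x y hxy h => core ?_ (col_eq h)⟩
  rw [φ.symm.dist_map]
  exact hxy

/-- with every number `k ≥ 7` of colours -/
theorem seven_le {k : ℕ} (hk : 7 ≤ k) : ∃ c : EuclideanSpace ℝ (Fin 2) → Fin k,
    ∀ x y : EuclideanSpace ℝ (Fin 2), dist x y = 1 → c x ≠ c y := by
  obtain ⟨c, hc⟩ := seven_plane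
  exact ⟨fun x => Fin.castLE hk (c x), fun x y hxy h =>
    hc x y hxy (Fin.castLE_injective hk h)⟩

end Vale.Agent.P032.H520
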